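import Vale.Agent.P202.CharP.Gen3.E2
import Vale.Agent.P202.Cut
import Vale.Agent.P202.FilterReg
import Vale.Agent.P202.AsymNat

/-!
P202-GEN3, E1: the minimal length of the graded pieces is at most the Euler characteristic.
-/

set_option linter.unusedSectionVars false
set_option linter.unusedVariables false

namespace Vale.Agent.P202.CharP.Gen3

open Submodule IsLocalRing

universe u v

theorem pow_span_pow_le {B : Type*} [CommRing B] {n : ℕ} (x : Fin n → B) (t w : ℕ) :
    Ideal.span (Set.range fun i => x i ^ t) ^ w ≤ Ideal.span (Set.range x) ^ (t * w) := by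
  rw [pow_mul]
  refine Ideal.pow_right_mono ?_ w
  rw [Ideal.span_le]
  rintro _ ⟨i, rfl⟩
  exact Ideal.pow_mem_pow (Ideal.subset_span (Set.mem_range_self i)) t

theorem ell_pow_le_card_mul {B : Type*} [CommRing B] {n : ℕ} (x : Fin n → B) (w : ℕ) :
    ell (Ideal.span (Set.range x) ^ w) ≤
      ((tri (Fin n) w).card : ℕ∞) * ell (Ideal.span (Set.range x)) := by
  rw [ell_pow_eq, ← gp_zero_eq, ← nsmul_eq_mul, ← Finset.sum_const]
  exact Finset.sum_le_sum fun u _ => gp_le_zero x u

/-- E1a. -/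
theorem emin_mul_pow_le {B : Type*} [CommRing B] {n : ℕ} (hn : 0 < n) (x : Fin n → B) (t : ℕ)
    (ht : 1 ≤ t) (lam L : ℕ) (hlam : emin x = lam)
    (hL : ell (Ideal.span (Set.range fun i => x i ^ t)) = L) : lam * t ^ n ≤ L := by
  refine le_of_forall_pow_le hn (lam * t ^ n) L 0 n fun w hw => ?_
  have h1 := emin_mul_card_le x (t * w)
  have h2 : ell (Ideal.span (Set.range x) ^ (t * w)) ≤
      ell (Ideal.span (Set.range fun i => x i ^ t) ^ w) := ell_mono (pow_span_pow_le x t w)
  have h3 := ell_pow_le_card_mul (fun i => x i ^ t) w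
  rw [hL] at h3
  rw [hlam] at h1
  have h4 : lam * (tri (Fin n) (t * w)).card ≤ (tri (Fin n) w).card * L := by
    exact_mod_cast h1.trans (h2.trans h3)
  have h5 := pow_le_factorial_mul_card_tri (σ := Fin n) (t * w) (by positivity)
  have h6 := factorial_mul_card_tri_le (σ := Fin n) w
  rw [Fintype.card_fin] at h5 h6
  calc lam * t ^ n * w ^ n = lam * (t * w) ^ n := by rw [mul_pow]; ring
    _ ≤ lam * (n.factorial * (tri (Fin n) (t * w)).card) := Nat.mul_le_mul_left _ h5
    _ = n.factorial * (lam * (tri (Fin n) (t * w)).card) := by ring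
    _ ≤ n.factorial * ((tri (Fin n) w).card * L) := Nat.mul_le_mul_left _ h4
    _ = L * (n.factorial * (tri (Fin n) w).card) := by ring
    _ ≤ L * (w + n) ^ n := Nat.mul_le_mul_left _ h6
    _ = L * (w + n) ^ n + 0 * (w + n) ^ (n - 1) := by ring

variable {B : Type u} [CommRing B] [IsNoetherianRing B] [IsLocalRing B]

/-- the alternating sum is at least the first term minus the others. -/
theorem kk_zero_le_kchi_add {n : ℕ} (y : Fin n → B) (M : Type*) [AddCommGroup M] [Module B M]
    (C : ℕ) (h : ∀ i : ℤ, 1 ≤ i → kk y M i ≤ C) :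
    ((kk y M 0).toNat : ℤ) ≤ kchi y M + n * C := by
  unfold kchi
  rw [Finset.sum_range_succ']
  have h1 : ∀ i ∈ Finset.range n,
      -(C : ℤ) ≤ (-1 : ℤ) ^ (i + 1) * ((kk y M ((i + 1 : ℕ) : ℤ)).toNat : ℤ) := by
    intro i _
    have h2 := h ((i + 1 : ℕ) : ℤ) (by push_cast; omega)
    have h3 : (kk y M ((i + 1 : ℕ) : ℤ)).toNat ≤ C := by
      have := ENat.toNat_le_toNat h2 (ENat.natCast_ne_top C)
      simpa using this
    have h4 : ((kk y M ((i + 1 : ℕ) : ℤ)).toNat : ℤ) ≤ C := by exact_mod_cast h3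
    have h5 : (0 : ℤ) ≤ ((kk y M ((i + 1 : ℕ) : ℤ)).toNat : ℤ) := by positivity
    rcases neg_one_pow_eq_or ℤ (i + 1) with h6 | h6 <;> rw [h6] <;> linarith
  have h7 := Finset.sum_le_sum h1
  rw [Finset.sum_const, Finset.card_range, nsmul_eq_mul] at h7
  simp only [pow_zero, one_mul, Nat.cast_zero]
  linarith

/-- E1. -/
theorem emin_le_kchi {n : ℕ} (hn : 0 < n) (x : Fin n → B) (hx : ∀ i, x i ∈ maximalIdeal B)
    (hxl : ell (Ideal.span (Set.range x)) ≠ ⊤) (lam : ℕ) (hlam : emin x = lam) :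
    (lam : ℤ) ≤ kchi x B := by
  have e : ∀ z : Fin n → B, (Ideal.span (Set.range z) • (⊤ : Submodule B B)) =
      Ideal.span (Set.range z) := fun z => by
    rw [smul_eq_mul, Ideal.mul_top]
  have hxl' : Module.length B (B ⧸ (Ideal.span (Set.range x) • (⊤ : Submodule B B))) ≠ ⊤ := by
    rw [e]
    exact hxl
  have hpf : PF x B := pf_of_length_ne_top hxl'
  obtain ⟨C, hC⟩ := kk_growth (M := B) hpf
  have h0 := kchi_nonneg x hx B hxl'
  obtain ⟨K, hK⟩ := Int.eq_ofNat_of_zero_le h0
  rw [hK]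
  have key : lam ≤ K := le_of_forall_pow_le (d := n + 1) (Nat.succ_pos n) lam K (n * C) 0
      fun t ht => by
    have hpt : PF (fun i => x i ^ t) B := pf_pow hpf t
    have hfin : ell (Ideal.span (Set.range fun i => x i ^ t)) ≠ ⊤ := by
      have := hpt.length_ne_top
      rw [e] at this
      exact this
    obtain ⟨L, hL⟩ := ENat.ne_top_iff_exists.mp hfin
    have h1 := emin_mul_pow_le hn x t ht lam L hlam hL.symm
    have h2 : kk (fun i => x i ^ t) B 0 = L := by
      rw [kk_zero, e, hL]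
      rfl
    have h3 := kchi_pow x hx t ht B hxl'
    -- bound of the higher homology
    have hfk : ∀ i : ℤ, kk (fun i => x i ^ t) B i ≠ ⊤ := fun i => hpt.kk_ne_top i
    have h4 : ∀ i : ℤ, 1 ≤ i → t * (kk (fun i => x i ^ t) B i).toNat ≤ C * t ^ n := by
      intro i hi
      have h5 := (hC t ht i).2 hi
      have h6 := ENat.toNat_le_toNat h5 (ENat.natCast_ne_top _)
      rw [ENat.toNat_mul, ENat.toNat_natCast, ENat.toNat_natCast] at h6
      exact h6
    have h7 : (t : ℤ) * ((kk (fun i => x i ^ t) B 0).toNat : ℤ) ≤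
        t * kchi (fun i => x i ^ t) B + n * (C * (t : ℤ) ^ n) := by
      unfold kchi
      rw [Finset.sum_range_succ']
      have h8 : ∀ i ∈ Finset.range n, -((C : ℤ) * (t : ℤ) ^ n) ≤
          t * ((-1 : ℤ) ^ (i + 1) * ((kk (fun i => x i ^ t) B ((i + 1 : ℕ) : ℤ)).toNat : ℤ)) := by
        intro i _
        have h9 : (t : ℤ) * ((kk (fun i => x i ^ t) B ((i + 1 : ℕ) : ℤ)).toNat : ℤ) ≤
            C * (t : ℤ) ^ n := by
          exact_mod_cast h4 ((i + 1 : ℕ) : ℤ) (by push_cast; omega)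
        have h10 : (0 : ℤ) ≤ (t : ℤ) * ((kk (fun i => x i ^ t) B ((i + 1 : ℕ) : ℤ)).toNat : ℤ) :=
          by positivity
        rcases neg_one_pow_eq_or ℤ (i + 1) with h6 | h6 <;> rw [h6] <;> linarith
      have h11 := Finset.sum_le_sum h8
      rw [Finset.sum_const, Finset.card_range, nsmul_eq_mul, ← Finset.mul_sum] at h11
      simp only [pow_zero, one_mul, Nat.cast_zero]
      rw [mul_add]
      linarith
    rw [h2, h3, hK, ENat.toNat_natCast] at h7
    have h12 : t * L ≤ t * (t ^ n * K) + n * (C * t ^ n) := by exact_mod_cast h7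
    rw [Nat.add_sub_cancel, add_zero]
    calc lam * t ^ (n + 1) = t * (lam * t ^ n) := by ring
      _ ≤ t * L := Nat.mul_le_mul_left _ h1
      _ ≤ t * (t ^ n * K) + n * (C * t ^ n) := h12
      _ = K * t ^ (n + 1) + n * C * t ^ n := by ring
  exact_mod_cast key

end Vale.Agent.P202.CharP.Gen3
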