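import Vale.Agent.P202.CharP.Gen2.RingsO
import Vale.Agent.P202.CharP.Gen2.ListO
import Vale.Agent.P202.CharP.Gen2.HaTop
import Vale.Agent.P202.CharP.Gen2.LengthO
import Vale.Agent.P202.CharP.Gen2.KchiLL
import Vale.Agent.P202.CharP.Gen2.ModelIneq
import Vale.Agent.P202.CharP.Gen2.EstMain
import Vale.Agent.P202.CharP.KChi
import Vale.Agent.P202.CharP.KBasic
import Vale.Agent.P202.CharP.FrobBasic

/-!
P202-GEN3: the geometric inequality with errors.
-/

namespace Vale.Agent.P202.CharP.Gen3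

open Submodule TensorProduct IsLocalRing Gen2

universe u

/-- the Euler characteristic in terms of Koszul degrees -/
theorem iq_xic (n : ℕ) (g : ℤ → ℕ∞) : Gen.xic n 1 (fun p => g (-p)) =
    ∑ i ∈ Finset.range (n + 1), (-1 : ℤ) ^ i * ((g i).toNat : ℤ) := by
  unfold Gen.xic
  symm
  refine Finset.sum_nbij' (fun i : ℕ => -(i : ℤ)) (fun p : ℤ => (-p).toNat) ?_ ?_ ?_ ?_ ?_
  · intro i hi
    rw [Finset.mem_range] at hi
    rw [Finset.mem_Ico]
    push_cast
    omega
  · intro p hp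
    rw [Finset.mem_Ico] at hp
    rw [Finset.mem_range]
    push_cast at hp
    omega
  · intro i _
    simp
  · intro p hp
    rw [Finset.mem_Ico] at hp
    push_cast at hp
    omega
  · intro i _
    simp only [neg_neg, Int.negOnePow_neg]
    congr 1

/-- a module of finite length has vanishing Euler characteristic -/
theorem iq_kchi_zero {B : Type u} [CommRing B] [IsNoetherianRing B] [IsLocalRing B] {n : ℕ}
    (hn : 1 ≤ n) (y : Fin n → B) (hy : ∀ i, y i ∈ maximalIdeal B) (M : Type u) [AddCommGroup M]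
    [Module B M] [Module.Finite B M] (h : Module.length B M ≠ ⊤) : kchi y M = 0 := by
  have h1 : Module.length B
      (M ⧸ (Ideal.span (Set.range y) • (⊤ : Submodule B M))) ≠ ⊤ :=
    ne_top_of_le_ne_top h (Module.length_le_of_surjective _ (Submodule.mkQ_surjective _))
  have h2 : Module.length B
      (M ⧸ (Ideal.span (Set.range (Fin.elim0 : Fin 0 → B)) • (⊤ : Submodule B M))) ≠ ⊤ :=
    ne_top_of_le_ne_top h (Module.length_le_of_surjective _ (Submodule.mkQ_surjective _))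
  have h3 : Module.supportDim B M ≤ (0 : ℕ) :=
    (pf_of_length_ne_top h2).supportDim_le (fun i => i.elim0)
  refine (pf_of_length_ne_top h1).kchi_eq_zero hy (lt_of_le_of_lt h3 ?_)
  exact_mod_cast hn

theorem iq_alt (n : ℕ) (t : ℤ → ℕ) (rr : ℤ → ℤ) (hr : ∀ i, (t i : ℤ) = rr i + rr (i + 1)) :
    ∑ i ∈ Finset.range (n + 1), (-1 : ℤ) ^ i * (t i : ℤ) =
      rr 0 + (-1) ^ n * rr ((n : ℤ) + 1) := by
  induction n with
  | zero =>
    simp only [zero_add, Finset.sum_range_one, pow_zero, one_mul]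
    exact hr 0
  | succ n ih =>
    rw [Finset.sum_range_succ, ih, hr]
    push_cast
    ring

/-- the Euler characteristic of the small ring has a finite bottom term -/
theorem iq_ne_top {A A' : Type u} [CommRing A] [IsLocalRing A] [IsNoetherianRing A]
    [CommRing A'] [IsLocalRing A'] [IsNoetherianRing A'] [Algebra A A']
    [IsLocalHom (algebraMap A A')] [Module.Finite A A'] {n : ℕ} (z : Fin n → A') (Q : ℕ)
    (hQ : 1 ≤ Q)
    (hzQ : ∀ a ∈ maximalIdeal A, algebraMap A A' a ∈ Ideal.span (Set.range z) ^ Q) :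
    Module.length (ResidueField A) (ResidueField A') * kk z A' 0 ≠ ⊤ := by
  rw [kk_zero z A', mul_comm, ← length_restrict]
  have hart : IsArtinianRing (A ⧸ maximalIdeal A) := by
    let := Ideal.Quotient.field (maximalIdeal A)
    infer_instance
  refine length_ne_top_of_quot (maximalIdeal A) ?_
  intro a ha v
  obtain ⟨v, rfl⟩ := Submodule.mkQ_surjective _ v
  have h1 : algebraMap A A' a ∈ Ideal.span (Set.range z) :=
    Ideal.pow_le_self (by omega) (hzQ a ha)
  rw [← algebraMap_smul A' a, ← map_smul, ← LinearMap.mem_ker, Submodule.ker_mkQ]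
  exact Submodule.smul_mem_smul h1 Submodule.mem_top

/-- the geometric inequality with errors, uniform version: the constant depends only on
`p`, `r`, `m`, `Q`, `N₀`. -/
theorem gen3_ineq_unif (p : ℕ) [Fact p.Prime] {r : ℕ} (m : Fin (r + 1)) (Q : ℕ) (hQ : 1 ≤ Q)
    (N₀ : ℕ) : ∃ C : ℕ, ∀ (A S : Type u) [CommRing A] [IsLocalRing A]
      [IsNoetherianRing A] [CharP A p] [CommRing S] [IsLocalRing S] [IsNoetherianRing S]
      [Algebra A S] [IsLocalHom (algebraMap A S)] [Module.Flat A S]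
      (_ : Module.length S (S ⧸ (maximalIdeal A).map (algebraMap A S)) ≠ ⊤)
      (y : Fin (r + 1) → S) (_ : ∀ i, y i ∈ maximalIdeal S)
      (_ : Module.length S (S ⧸ Ideal.span (Set.range y)) ≠ ⊤)
      (t : ℤ → ℕ) (_ : ∀ i, kk y (S ⧸ (maximalIdeal A).map (algebraMap A S)) i = t i)
      (rr : ℤ → ℤ) (_ : ∀ i, (t i : ℤ) = rr i + rr (i + 1))
      (_ : ∀ i, ((r + 1 : ℕ) : ℤ) < i → rr i = 0) (τ : ℕ) (_ : ∀ i, t i ≤ τ)
      (A' : Type u) [CommRing A'] [IsLocalRing A'] [IsNoetherianRing A']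
      [CharP A' p] [Algebra A A'] [IsLocalHom (algebraMap A A')] [Module.Finite A A']
      [IsLocalRing (S ⊗[A] A')]
      (z : Fin (r + 1) → A') (_ : ∀ i, z i ∈ maximalIdeal A')
      (_ : ∀ a ∈ maximalIdeal A, algebraMap A A' a ∈ Ideal.span (Set.range z) ^ Q)
      (_ : ∀ l, (1 : S) ⊗ₜ[A] (z l ^ N₀) ∈
        (Ideal.span (Set.range y)).map (algebraMap S (S ⊗[A] A')))
      (f : ℕ) (_ : Module.length (ResidueField A) (ResidueField A') = f)
      (lam η : ℕ) (_ : (f : ℤ) * kchi z A' = lam)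
      (_ : ∀ i : ℤ, 1 ≤ i → (f : ℕ∞) * kk z A' i ≤ η),
      (lam : ℤ) * ((wc m Q 0 : ℤ) * t 0 + ∑ j ∈ Finset.Icc 1 (m : ℕ), (wc m Q j : ℤ) * rr (j + 1) -
        ∑ j ∈ Finset.Icc ((m : ℕ) + 1) r, (wc m Q j : ℤ) * rr (j + 1)) -
          (C : ℤ) * ((τ : ℤ) * η) ≤
      (r.factorial : ℤ) * kchi y (S ⊗[A] A') := by
  obtain ⟨C, hC⟩ := model_ineq_c (κ := ZMod p) m Q hQ N₀ ((r + 1) + (r + 1)) (by omega)
  refine ⟨C * (3 * (r + 1)), ?_⟩
  intro A S _ _ _ _ _ _ _ _ _ _ hT y hy hyl t ht rr hr hr' τ hτ A' _ _ _ _ _ _ _ _ z hz hzQ hzN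
    f hf lam η hlam hη
  -- the Betti numbers
  have htout : ∀ i : ℤ, i < 0 ∨ ((r + 1 : ℕ) : ℤ) < i → t i = 0 := by
    intro i hi
    have h1 := kk_out y (S ⧸ (maximalIdeal A).map (algebraMap A S)) i hi
    rw [ht] at h1
    exact_mod_cast h1
  have hr1 : rr 1 = t 0 := by
    have h1 := iq_kchi_zero (n := r + 1) (by omega) y hy
      (S ⧸ (maximalIdeal A).map (algebraMap A S)) hT
    unfold kchi at h1
    simp only [ht, ENat.toNat_natCast] at h1
    rw [iq_alt (r + 1) t rr hr, hr' (((r + 1 : ℕ) : ℤ) + 1) (by omega), mul_zero, add_zero] at h1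
    have h2 := hr 0
    rw [zero_add] at h2
    omega
  have i1 := smulComm_Om p r (A := A) (A' := A')
  have i2 := (towers p r (A := A) (S := S) (A' := A')).1
  have i3 := (towers p r (A := A) (S := S) (A' := A')).2.1
  have i4 := (towers p r (A := A) (S := S) (A' := A')).2.2
  have i5 := pushout_Sg p r (A := A) (S := S) (A' := A')
  have i6 := flat_Om p r (A' := A')
  have i7 := flat_Sg p r (A := A) (S := S) (A' := A')
  have i8 := noeth_Sg p r (A := A) (S := S) (A' := A')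
  have i9 := mX_maximal (ZMod p) r
  obtain ⟨i10, c, hc1, hc⟩ := residue_finite (A := A) (S := S) (A' := A')
  have h0 := iq_ne_top z Q hQ hzQ
  have htop := hA_top p r (A := A) z
  rw [hf] at htop h0
  have hest : EstAll (ZMod p) r Q (SgR p r A S A') (kdeg ((r + 1) + (r + 1)))
      (kos ((r + 1) + (r + 1)) (LL p r A y z)) c lam t (3 * (r + 1) * τ * η) := by
    intro X Y hXY hK hfin i
    refine est_main (A := A) (S := S) (Sg := SgR p r A S A') y (vz p r z) (mX (ZMod p) r) Q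
      (push_Om p r z Q hzQ) c ?_ hc1 lam η ?_ ?_ ?_ t ht τ hτ X Y hXY hK hfin i
    · intro N _ _ _ _ hN
      rw [length_Sg p r (A := A) (A' := A') Q N hN, hc]
    · intro b hb
      rw [htop]
      exact hη b hb
    · rw [htop]
      exact h0
    · simp only [htop]
      rw [iq_xic (r + 1) (fun b => (f : ℕ∞) * kk z A' b), ← hlam]
      unfold kchi
      rw [Finset.mul_sum]
      refine Finset.sum_congr rfl fun i _ => ?_
      rw [ENat.toNat_mul, ENat.toNat_natCast]
      push_cast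
      ring
  have hmain := hC (SgR p r A S A') (LL p r A y z) (length_LL p r y z hyl)
    (X_pow_mem p r y z N₀ hzN) c lam (3 * (r + 1) * τ * η) hc1 t (fun i hi => htout i (Or.inr hi))
    rr hr hr' hr1 hest
  have hLL := kchi_LL p r (A := A) (A' := A') y z hy hyl c hc
  rw [← hLL]
  refine le_trans (le_of_eq ?_) (hmain.trans (le_of_eq ?_))
  · push_cast
    ring
  · ring

/-- the geometric inequality with errors. -/
theorem gen3_ineq (p : ℕ) [Fact p.Prime] {A S : Type u} [CommRing A] [IsLocalRing A]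
    [IsNoetherianRing A] [CharP A p] [CommRing S] [IsLocalRing S] [IsNoetherianRing S]
    [Algebra A S] [IsLocalHom (algebraMap A S)] [Module.Flat A S] {r : ℕ}
    (hT : Module.length S (S ⧸ (maximalIdeal A).map (algebraMap A S)) ≠ ⊤)
    (y : Fin (r + 1) → S) (hy : ∀ i, y i ∈ maximalIdeal S)
    (hyl : Module.length S (S ⧸ Ideal.span (Set.range y)) ≠ ⊤)
    (t : ℤ → ℕ) (ht : ∀ i, kk y (S ⧸ (maximalIdeal A).map (algebraMap A S)) i = t i)
    (rr : ℤ → ℤ) (hr : ∀ i, (t i : ℤ) = rr i + rr (i + 1))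
    (hr' : ∀ i, ((r + 1 : ℕ) : ℤ) < i → rr i = 0) (m : Fin (r + 1)) (Q : ℕ) (hQ : 1 ≤ Q)
    (N₀ : ℕ) : ∃ C : ℕ, ∀ (A' : Type u) [CommRing A'] [IsLocalRing A'] [IsNoetherianRing A']
      [CharP A' p] [Algebra A A'] [IsLocalHom (algebraMap A A')] [Module.Finite A A']
      [IsLocalRing (S ⊗[A] A')]
      (z : Fin (r + 1) → A') (_ : ∀ i, z i ∈ maximalIdeal A')
      (_ : ∀ a ∈ maximalIdeal A, algebraMap A A' a ∈ Ideal.span (Set.range z) ^ Q)
      (_ : ∀ l, (1 : S) ⊗ₜ[A] (z l ^ N₀) ∈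
        (Ideal.span (Set.range y)).map (algebraMap S (S ⊗[A] A')))
      (f : ℕ) (_ : Module.length (ResidueField A) (ResidueField A') = f)
      (lam η : ℕ) (_ : (f : ℤ) * kchi z A' = lam)
      (_ : ∀ i : ℤ, 1 ≤ i → (f : ℕ∞) * kk z A' i ≤ η),
      (lam : ℤ) * ((wc m Q 0 : ℤ) * t 0 + ∑ j ∈ Finset.Icc 1 (m : ℕ), (wc m Q j : ℤ) * rr (j + 1) -
        ∑ j ∈ Finset.Icc ((m : ℕ) + 1) r, (wc m Q j : ℤ) * rr (j + 1)) - (C : ℤ) * η ≤
      (r.factorial : ℤ) * kchi y (S ⊗[A] A') := by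
  obtain ⟨τ, hτ⟩ : ∃ τ : ℕ, ∀ i, t i ≤ τ := by
    refine ⟨∑ i ∈ Finset.range (r + 2), t i, fun i => ?_⟩
    by_cases hi : i < 0 ∨ ((r + 1 : ℕ) : ℤ) < i
    · have h1 := kk_out y (S ⧸ (maximalIdeal A).map (algebraMap A S)) i hi
      rw [ht] at h1
      have h2 : t i = 0 := by exact_mod_cast h1
      rw [h2]
      exact Nat.zero_le _
    · push Not at hi
      obtain ⟨j, rfl⟩ := Int.eq_ofNat_of_zero_le hi.1
      exact Finset.single_le_sum (f := fun i : ℕ => t i) (fun _ _ => Nat.zero_le _)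
        (Finset.mem_range.2 (by omega))
  obtain ⟨C, hC⟩ := gen3_ineq_unif.{u} p m Q hQ N₀
  refine ⟨C * τ, ?_⟩
  intro A' _ _ _ _ _ _ _ _ z hz hzQ hzN f hf lam η hlam hη
  refine le_trans (le_of_eq ?_) (hC A S hT y hy hyl t ht rr hr hr' τ hτ A' z hz hzQ hzN f hf lam η
    hlam hη)
  push_cast
  ring

end Vale.Agent.P202.CharP.Gen3
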