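import Vale.Agent.P202.CharP.KChi
import Vale.Agent.P202.CharP.Gen.LesG

/-!
P202-GEN3, E2: growth of Koszul homology of powers of a multiplicity system.
-/

set_option linter.unusedSectionVars false
set_option linter.unusedVariables false

namespace Vale.Agent.P202.CharP.Gen3

open Submodule IsLocalRing

universe u v

section Sub

variable {B : Type*} [CommRing B]

/-- subadditivity of Koszul homology. -/
theorem kk_le_add {n : ℕ} (y : Fin n → B) {M₁ M₂ M₃ : Type*} [AddCommGroup M₁] [Module B M₁]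
    [AddCommGroup M₂] [Module B M₂] [AddCommGroup M₃] [Module B M₃]
    (f : M₁ →ₗ[B] M₂) (g : M₂ →ₗ[B] M₃) (hf : Function.Injective f)
    (hg : Function.Surjective g) (hfg : Function.Exact f g) (i : ℤ) :
    kk y M₂ i ≤ kk y M₃ i + kk y M₁ i := by
  have hQ := kos_isCx n y
  set D : (KIdx n → M₂) →ₗ[B] (KIdx n → M₂) := tot (kdeg n) (kos n y) (0 : M₂ →ₗ[B] M₂) with hD
  set X := lift (kdeg n) (conc (⊥ : Submodule B M₂)) with hX
  set Y := lift (kdeg n) (conc (LinearMap.range f)) with hY
  set Z := lift (kdeg n) (conc (⊤ : Submodule B M₂)) with hZ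
  have hDD : ∀ x, D (D x) = 0 := tot_tot _ _ hQ _ (fun _ => rfl)
  have sX : Stab D X := lift_conc_stab _ _ hQ _
  have sY : Stab D Y := lift_conc_stab _ _ hQ _
  have sZ : Stab D Z := lift_conc_stab _ _ hQ _
  have hXY : ∀ δ, X δ ≤ Y δ := lift_mono _ (conc_mono bot_le)
  have hYZ : ∀ δ, Y δ ≤ Z δ := lift_mono _ (conc_mono le_top)
  have k2 : ∀ i, hh D Z X i = kk y M₂ i := fun i => rfl
  have k1 : ∀ i, hh D Y X i = kk y M₁ i := by
    intro i
    symm
    refine khs_map_eq (kdeg n) (kos n y) hQ f ⊤ ⊥ (LinearMap.range f) ⊥ bot_le ?_ ?_ i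
    · rw [Submodule.map_top]
    · intro x _
      rw [Submodule.mem_bot, Submodule.mem_bot]
      exact map_eq_zero_iff f hf
  have k3 : ∀ i, hh D Z Y i = kk y M₃ i := by
    intro i
    refine khs_map_eq (kdeg n) (kos n y) hQ g ⊤ (LinearMap.range f) ⊤ ⊥ le_top ?_ ?_ i
    · rw [Submodule.map_top, LinearMap.range_eq_top.mpr hg]
    · intro x _
      rw [Submodule.mem_bot]
      exact hfg x
  rw [← k2, ← k1, ← k3]
  exact Gen.hh_le_add D hDD X Y Z sX sY sZ hXY hYZ i

/-- peeling inequality. -/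
theorem kk_peel_le {n : ℕ} (y : Fin (n + 1) → B) (M : Type*) [AddCommGroup M] [Module B M]
    (i : ℤ) :
    kk y M i ≤ kk (fun i => y i.succ) (M ⧸ (LinearMap.range (LinearMap.lsmul B M (y 0)))) i +
      kk (fun i => y i.succ) ↥(LinearMap.ker (LinearMap.lsmul B M (y 0))) (i - 1) := by
  obtain ⟨al, be, ga, h⟩ := kp_les (kdeg n) (kos n fun i => y i.succ) (kos_isCx n _) (y 0) M
  obtain ⟨h1, h2, h3⟩ := h i
  rw [kp_kk, h1, add_comm]
  unfold kk
  rw [h2, h3]
  exact add_le_add le_self_add le_add_self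

end Sub

section

variable {B : Type u} [CommRing B] [IsNoetherianRing B] [IsLocalRing B]

theorem pf_pow {n : ℕ} {y : Fin n → B} {M : Type*} [AddCommGroup M] [Module B M] (h : PF y M)
    (t : ℕ) : PF (fun i => y i ^ t) M := h.pow (fun _ => t)

/-- the tail is a multiplicity system of modules killed by a power of the first element. -/
theorem pf_tail_of_pow {n : ℕ} {y : Fin (n + 1) → B} {M : Type*} [AddCommGroup M] [Module B M]
    (h : PF y M) (u : ℕ) (h0 : y 0 ^ u ∈ Module.annihilator B M) :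
    PF (fun i => y i.succ) M := by
  obtain ⟨s, hs⟩ := h
  have h1 : maximalIdeal B ≤ (Module.annihilator B M ⊔
      Ideal.span (Set.range fun i : Fin n => y i.succ)).radical := by
    intro a ha
    have h2 : a ^ s ∈ Module.annihilator B M ⊔ Ideal.span (Set.range y) :=
      hs (Ideal.pow_mem_pow ha s)
    have h3 : Module.annihilator B M ⊔ Ideal.span (Set.range y) ≤
        (Module.annihilator B M ⊔ Ideal.span (Set.range fun i : Fin n => y i.succ)).radical := by
      refine sup_le (le_sup_left.trans Ideal.le_radical) ?_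
      rw [Ideal.span_le]
      rintro _ ⟨i, rfl⟩
      refine Fin.cases ?_ (fun j => ?_) i
      · exact ⟨u, Ideal.mem_sup_left h0⟩
      · exact Ideal.le_radical (Ideal.mem_sup_right (Ideal.subset_span ⟨j, rfl⟩))
    have h4 := h3 h2
    rw [← Ideal.radical_idem]
    exact ⟨s, h4⟩
  exact Ideal.exists_pow_le_of_le_radical_of_fg h1 (IsNoetherian.noetherian _)

theorem kk_subsingleton {n : ℕ} (y : Fin n → B) {M : Type*} [AddCommGroup M] [Module B M]
    [Subsingleton M] (i : ℤ) : kk y M i = 0 := by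
  unfold kk kh khs hh
  rw [rl_eq_zero_iff]
  intro x _
  rw [Subsingleton.elim x 0]
  exact Submodule.zero_mem _

/-- the exact sequence `M / (c M + ker c ^ u) → M / c ^ (u + 1) M → M / c ^ u M`. -/
theorem kk_quot_pow_succ {n : ℕ} (y : Fin n → B) (c : B) (M : Type*) [AddCommGroup M]
    [Module B M] (u : ℕ) (i : ℤ) :
    kk y (M ⧸ LinearMap.range (LinearMap.lsmul B M (c ^ (u + 1)))) i ≤
      kk y (M ⧸ LinearMap.range (LinearMap.lsmul B M (c ^ u))) i +
      kk y (M ⧸ (LinearMap.range (LinearMap.lsmul B M c) ⊔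
        LinearMap.ker (LinearMap.lsmul B M (c ^ u)))) i := by
  have hker : LinearMap.ker ((Submodule.mkQ (LinearMap.range (LinearMap.lsmul B M
      (c ^ (u + 1))))).comp (LinearMap.lsmul B M (c ^ u))) =
      LinearMap.range (LinearMap.lsmul B M c) ⊔ LinearMap.ker (LinearMap.lsmul B M (c ^ u)) := by
    ext m
    rw [LinearMap.mem_ker, LinearMap.comp_apply, Submodule.mkQ_apply,
      Submodule.Quotient.mk_eq_zero]
    constructor
    · rintro ⟨m', hm'⟩
      rw [LinearMap.lsmul_apply, LinearMap.lsmul_apply] at hm'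
      refine Submodule.mem_sup.mpr ⟨c • m', ⟨m', rfl⟩, m - c • m', ?_, by abel⟩
      rw [LinearMap.mem_ker, LinearMap.lsmul_apply, smul_sub, ← hm', smul_smul, ← pow_succ,
        sub_self]
    · intro h
      obtain ⟨_, ⟨m', rfl⟩, k, hk, rfl⟩ := Submodule.mem_sup.mp h
      refine ⟨m', ?_⟩
      rw [LinearMap.mem_ker, LinearMap.lsmul_apply] at hk
      rw [LinearMap.lsmul_apply, LinearMap.lsmul_apply, LinearMap.lsmul_apply, smul_add, hk,
        add_zero, smul_smul, ← pow_succ]
  have hle : LinearMap.range (LinearMap.lsmul B M (c ^ (u + 1))) ≤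
      LinearMap.range (LinearMap.lsmul B M (c ^ u)) := by
    rintro _ ⟨m, rfl⟩
    refine ⟨c • m, ?_⟩
    rw [LinearMap.lsmul_apply, LinearMap.lsmul_apply, smul_smul, ← pow_succ]
  refine kk_le_add y
    (Submodule.liftQ _ ((Submodule.mkQ (LinearMap.range (LinearMap.lsmul B M
      (c ^ (u + 1))))).comp (LinearMap.lsmul B M (c ^ u))) hker.ge)
    (Submodule.factor hle) ?_ ?_ ?_ i
  · rw [← LinearMap.ker_eq_bot, Submodule.ker_liftQ, hker, Submodule.mkQ_map_self]
  · exact Submodule.factor_surjective hle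
  · intro z
    obtain ⟨m, rfl⟩ := Submodule.Quotient.mk_surjective _ z
    constructor
    · intro h
      have h1 : (Submodule.Quotient.mk m : M ⧸ LinearMap.range (LinearMap.lsmul B M (c ^ u))) =
          0 := h
      rw [Submodule.Quotient.mk_eq_zero] at h1
      obtain ⟨m', rfl⟩ := h1
      exact ⟨Submodule.Quotient.mk m', rfl⟩
    · rintro ⟨w, hw⟩
      obtain ⟨m', rfl⟩ := Submodule.Quotient.mk_surjective _ w
      rw [← hw]
      change (Submodule.Quotient.mk (c ^ u • m') :
        M ⧸ LinearMap.range (LinearMap.lsmul B M (c ^ u))) = 0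
      rw [Submodule.Quotient.mk_eq_zero]
      exact ⟨m', rfl⟩

/-- E2: growth of Koszul homology of powers. -/
theorem kk_growth : ∀ {n : ℕ} {y : Fin n → B} {M : Type v} [AddCommGroup M] [Module B M]
    [Module.Finite B M], PF y M → ∃ C : ℕ, ∀ t : ℕ, 1 ≤ t → ∀ i : ℤ,
      kk (fun l => y l ^ t) M i ≤ ((C * t ^ n : ℕ) : ℕ∞) ∧
      (1 ≤ i → (t : ℕ∞) * kk (fun l => y l ^ t) M i ≤ ((C * t ^ n : ℕ) : ℕ∞)) := by
  intro n
  induction n with
  | zero =>
    intro y M _ _ _ h
    obtain ⟨C, hC⟩ := ENat.ne_top_iff_exists.mp (h.kk_ne_top 0)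
    refine ⟨C, fun t ht i => ?_⟩
    have e : (fun l => y l ^ t) = y := funext fun l => l.elim0
    rw [e]
    rcases lt_trichotomy i 0 with hi | hi | hi
    · rw [kk_out y M i (Or.inl hi)]
      exact ⟨zero_le, fun h => absurd h (by omega)⟩
    · subst hi
      rw [← hC]
      refine ⟨?_, fun h => absurd h (by omega)⟩
      rw [pow_zero, mul_one]
    · rw [kk_out y M i (Or.inr (by exact_mod_cast hi))]
      refine ⟨zero_le, fun _ => ?_⟩
      rw [mul_zero]
      exact zero_le
  | succ n ih =>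
    intro y M _ _ _ h
    set c := y 0 with hc
    set y' : Fin n → B := fun i => y i.succ with hy'
    let K : ℕ → Submodule B M := fun u => LinearMap.ker (LinearMap.lsmul B M (c ^ u))
    let R : Submodule B M := LinearMap.range (LinearMap.lsmul B M c)
    have hKmono : Monotone K := by
      intro u v huv m hm
      obtain ⟨w, rfl⟩ := Nat.exists_eq_add_of_le huv
      change c ^ (u + w) • m = 0
      have hm' : c ^ u • m = 0 := hm
      rw [add_comm, pow_add, mul_smul, hm', smul_zero]
    obtain ⟨s, hs⟩ := monotone_stabilizes_iff_noetherian.mpr (inferInstance : IsNoetherian B M)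
      ⟨K, hKmono⟩
    have hKs : ∀ t, K t = K (min t s) := by
      intro t
      rcases le_total t s with hts | hts
      · rw [min_eq_left hts]
      · rw [min_eq_right hts]
        exact (hs t hts).symm
    have hPK : ∀ u, PF y' ↥(K u) := fun u =>
      pf_tail_of_pow (h.of_injective _ (Submodule.injective_subtype (K u))) u (by
        rw [Module.mem_annihilator]
        intro m
        exact Subtype.ext m.2)
    have hPN : ∀ u, PF y' (M ⧸ (R ⊔ K u)) := fun u =>
      (h.of_surjective _ (Submodule.mkQ_surjective (R ⊔ K u))).tail (by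
        rw [Module.mem_annihilator]
        intro m
        obtain ⟨m, rfl⟩ := Submodule.Quotient.mk_surjective _ m
        rw [← Submodule.Quotient.mk_smul, Submodule.Quotient.mk_eq_zero]
        exact Submodule.mem_sup_left ⟨m, rfl⟩)
    choose C1 hC1 using fun u => ih (hPK u)
    choose C2 hC2 using fun u => ih (hPN u)
    set D1 := ∑ u ∈ Finset.range (s + 1), C1 u with hD1
    set D2 := ∑ u ∈ Finset.range (s + 1), C2 u with hD2
    have hle1 : ∀ u, C1 (min u s) ≤ D1 := fun u =>
      Finset.single_le_sum (f := C1) (fun _ _ => Nat.zero_le _)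
        (Finset.mem_range.mpr (by have := min_le_right u s; omega))
    have hle2 : ∀ u, C2 (min u s) ≤ D2 := fun u =>
      Finset.single_le_sum (f := C2) (fun _ _ => Nat.zero_le _)
        (Finset.mem_range.mpr (by have := min_le_right u s; omega))
    have bK : ∀ t u, 1 ≤ t → ∀ i : ℤ,
        kk (fun l => y' l ^ t) ↥(K u) i ≤ ((D1 * t ^ n : ℕ) : ℕ∞) := by
      intro t u ht i
      rw [kk_congr _ (LinearEquiv.ofEq _ _ (hKs u))]
      refine (hC1 (min u s) t ht i).1.trans ?_
      exact_mod_cast Nat.mul_le_mul_right _ (hle1 u)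
    have bN : ∀ t u, 1 ≤ t → ∀ i : ℤ,
        kk (fun l => y' l ^ t) (M ⧸ (R ⊔ K u)) i ≤ ((D2 * t ^ n : ℕ) : ℕ∞) ∧
        (1 ≤ i → (t : ℕ∞) * kk (fun l => y' l ^ t) (M ⧸ (R ⊔ K u)) i ≤
          ((D2 * t ^ n : ℕ) : ℕ∞)) := by
      intro t u ht i
      rw [kk_congr _ (Submodule.quotEquivOfEq _ _ (by rw [hKs u] : R ⊔ K u = R ⊔ K (min u s)))]
      refine ⟨(hC2 (min u s) t ht i).1.trans ?_, fun hi => ((hC2 (min u s) t ht i).2 hi).trans ?_⟩
      · exact_mod_cast Nat.mul_le_mul_right _ (hle2 u)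
      · exact_mod_cast Nat.mul_le_mul_right _ (hle2 u)
    have bQ : ∀ t u, 1 ≤ t → ∀ i : ℤ,
        kk (fun l => y' l ^ t) (M ⧸ LinearMap.range (LinearMap.lsmul B M (c ^ u))) i ≤
          ((u * (D2 * t ^ n) : ℕ) : ℕ∞) ∧
        (1 ≤ i → (t : ℕ∞) * kk (fun l => y' l ^ t)
          (M ⧸ LinearMap.range (LinearMap.lsmul B M (c ^ u))) i ≤
          ((u * (D2 * t ^ n) : ℕ) : ℕ∞)) := by
      intro t u ht i
      induction u with
      | zero =>
        have hsub : Subsingleton (M ⧸ LinearMap.range (LinearMap.lsmul B M (c ^ 0))) := by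
          rw [Submodule.Quotient.subsingleton_iff, eq_top_iff]
          intro m _
          exact ⟨m, by rw [pow_zero, LinearMap.lsmul_apply, one_smul]⟩
        rw [kk_subsingleton, mul_zero]
        exact ⟨zero_le, fun _ => zero_le⟩
      | succ u ihu =>
        have h1 := kk_quot_pow_succ (fun l => y' l ^ t) c M u i
        refine ⟨h1.trans ?_, fun hi => (mul_le_mul_right h1 _).trans ?_⟩
        · calc _ ≤ ((u * (D2 * t ^ n) : ℕ) : ℕ∞) + ((D2 * t ^ n : ℕ) : ℕ∞) :=
                add_le_add ihu.1 (bN t u ht i).1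
            _ = _ := by push_cast; ring
        · rw [mul_add]
          calc _ ≤ ((u * (D2 * t ^ n) : ℕ) : ℕ∞) + ((D2 * t ^ n : ℕ) : ℕ∞) :=
                add_le_add (ihu.2 hi) ((bN t u ht i).2 hi)
            _ = _ := by push_cast; ring
    refine ⟨D2 + D1, fun t ht i => ?_⟩
    have h1 := kk_peel_le (fun l => y l ^ t) M i
    have h2 := bQ t t ht i
    have h3 := bK t t ht (i - 1)
    refine ⟨h1.trans ?_, fun hi => (mul_le_mul_right h1 _).trans ?_⟩
    · calc _ ≤ ((t * (D2 * t ^ n) : ℕ) : ℕ∞) + ((D1 * t ^ n : ℕ) : ℕ∞) :=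
            add_le_add h2.1 h3
        _ ≤ ((t * (D2 * t ^ n) : ℕ) : ℕ∞) + ((t * (D1 * t ^ n) : ℕ) : ℕ∞) := by
            refine add_le_add le_rfl ?_
            exact_mod_cast Nat.le_mul_of_pos_left _ ht
        _ = _ := by
            rw [pow_succ]
            push_cast
            ring
    · rw [mul_add]
      calc _ ≤ ((t * (D2 * t ^ n) : ℕ) : ℕ∞) + (t : ℕ∞) * ((D1 * t ^ n : ℕ) : ℕ∞) :=
            add_le_add (h2.2 hi) (mul_le_mul_right h3 _)
        _ = _ := by
            rw [pow_succ]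
            push_cast
            ring

end

end Vale.Agent.P202.CharP.Gen3
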